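import Vale.Agent.Lib.Helper7.P308.Path

/-!
Partner maps versus matchings as subgraphs, and the counting inequality for Mathlib's matchings.
-/

namespace Vale.Agent.Lib.Helper7.P308

open Finset

variable {V : Type*}

/-- The partner map of a subgraph: a vertex with a neighbour in `M` goes to such a neighbour, every
other vertex to itself. -/
noncomputable def ofSub {G : SimpleGraph V} (M : G.Subgraph) : V → V := by
  classical
  exact fun x => if h : ∃ w, M.Adj x w then h.choose else x

theorem ofSub_adj {G : SimpleGraph V} {M : G.Subgraph} (hM : M.IsMatching) {x y : V}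
    (h : M.Adj x y) : ofSub M x = y := by
  classical
  have hex : ∃ w, M.Adj x w := ⟨y, h⟩
  have h1 : ofSub M x = hex.choose := by
    unfold ofSub
    rw [dif_pos hex]
  rw [h1]
  exact hM.eq_of_adj_left hex.choose_spec h

theorem ofSub_not {G : SimpleGraph V} {M : G.Subgraph} {x : V}
    (h : ¬ ∃ w, M.Adj x w) : ofSub M x = x := by
  classical
  unfold ofSub
  rw [dif_neg h]

theorem ofSub_invol {G : SimpleGraph V} {M : G.Subgraph} (hM : M.IsMatching) (x : V) :
    ofSub M (ofSub M x) = x := by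
  by_cases h : ∃ w, M.Adj x w
  · obtain ⟨w, hw⟩ := h
    rw [ofSub_adj hM hw, ofSub_adj hM hw.symm]
  · rw [ofSub_not h, ofSub_not h]

theorem ofSub_ne_iff {G : SimpleGraph V} {M : G.Subgraph} (hM : M.IsMatching) (x : V) :
    ofSub M x ≠ x ↔ x ∈ M.verts := by
  constructor
  · intro h
    by_contra hx
    apply h
    apply ofSub_not
    rintro ⟨w, hw⟩
    exact hx (M.edge_vert hw)
  · intro hx
    obtain ⟨w, hw, -⟩ := hM hx
    rw [ofSub_adj hM hw]
    exact (G.ne_of_adj (M.adj_sub hw)).symm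

theorem adj_iff_ofSub {G : SimpleGraph V} {M : G.Subgraph} (hM : M.IsMatching) (x y : V) :
    M.Adj x y ↔ ofSub M x = y ∧ x ∈ M.verts := by
  constructor
  · intro h
    exact ⟨ofSub_adj hM h, M.edge_vert h⟩
  · rintro ⟨h, hx⟩
    obtain ⟨w, hw, -⟩ := hM hx
    rw [ofSub_adj hM hw] at h
    rw [← h]
    exact hw

theorem ofSub_injOn {G : SimpleGraph V} :
    Set.InjOn (ofSub (G := G)) {M : G.Subgraph | M.IsMatching} := by
  intro M hM M' hM' h
  have hv : M.verts = M'.verts := by
    ext x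
    rw [← ofSub_ne_iff hM, ← ofSub_ne_iff hM', h]
  apply SimpleGraph.Subgraph.ext hv
  funext x y
  apply propext
  rw [adj_iff_ofSub hM, adj_iff_ofSub hM', h, hv]

theorem ofSub_isPerfect {G : SimpleGraph V} {M : G.Subgraph} (hM : M.IsPerfectMatching) :
    IsPerfect G (ofSub M) := by
  intro x
  obtain ⟨w, hw, -⟩ := hM.1 (hM.2 x)
  refine ⟨?_, ofSub_invol hM.1 x⟩
  rw [ofSub_adj hM.1 hw]
  exact M.adj_sub hw

theorem ofSub_np {G : SimpleGraph V} {M : G.Subgraph} (hM : M.IsMatching)
    (h2 : (M.vertsᶜ).ncard = 2) : ∃ u v, NP G (ofSub M) u v := by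
  obtain ⟨u, v, huv, hs⟩ := Set.ncard_eq_two.1 h2
  refine ⟨u, v, ofSub_invol hM, ?_, huv, fun x => ?_⟩
  · intro x hx
    obtain ⟨w, hw, -⟩ := hM ((ofSub_ne_iff hM x).1 hx)
    rw [ofSub_adj hM hw]
    exact M.adj_sub hw
  · have h1 : x ∈ M.vertsᶜ ↔ x = u ∨ x = v := by
      rw [hs]
      simp
    rw [← h1, Set.mem_compl_iff, ← ofSub_ne_iff hM x, not_not]

/-- The spanning subgraph whose edges join every vertex to its partner. -/
def toSub {G : SimpleGraph V} (σ : V → V) (h : IsPerfect G σ) : G.Subgraph where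
  verts := Set.univ
  Adj x y := σ x = y
  adj_sub := by
    intro x y hxy
    rw [← hxy]
    exact (h x).1
  edge_vert := fun _ => Set.mem_univ _
  symm := ⟨fun x y hxy => by
    show σ y = x
    rw [← hxy]
    exact (h x).2⟩

theorem toSub_isPerfectMatching {G : SimpleGraph V} (σ : V → V) (h : IsPerfect G σ) :
    (toSub σ h).IsPerfectMatching := by
  rw [SimpleGraph.Subgraph.isPerfectMatching_iff]
  intro v
  exact ⟨σ v, rfl, fun y hy => (show σ v = y from hy).symm⟩

/-- The counting inequality for matchings as subgraphs. -/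
theorem count_subgraphs [Fintype V] (G : SimpleGraph V) (k : ℕ)
    (hα : ∀ s : Finset V, (∀ p ∈ s, ∀ q ∈ s, p ≠ q → ¬ G.Adj p q) → s.card ≤ k)
    (hpm : ∃ M : G.Subgraph, M.IsPerfectMatching) :
    Set.ncard {M : G.Subgraph | M.IsMatching ∧ (M.vertsᶜ).ncard = 2}
      ≤ Fintype.card V ^ (6 * k + 2) * Set.ncard {M : G.Subgraph | M.IsPerfectMatching} := by
  classical
  obtain ⟨M0, hM0⟩ := hpm
  have h1 : Set.ncard {M : G.Subgraph | M.IsMatching ∧ (M.vertsᶜ).ncard = 2}
      ≤ Set.ncard {τ : V → V | ∃ u v, NP G τ u v} := by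
    apply Set.ncard_le_ncard_of_injOn ofSub
    · intro M hM
      exact ofSub_np hM.1 hM.2
    · exact ofSub_injOn.mono (fun M hM => hM.1)
  have h2 : Set.ncard {σ : V → V | IsPerfect G σ}
      ≤ Set.ncard {M : G.Subgraph | M.IsPerfectMatching} := by
    apply Set.ncard_le_ncard_of_injOn
      (fun σ => if h : IsPerfect G σ then toSub σ h else ⊥)
    · intro σ hσ
      have hσ' : IsPerfect G σ := hσ
      simp only [dif_pos hσ']
      exact toSub_isPerfectMatching σ hσ'
    · intro σ hσ σ' hσ' h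
      have a1 : IsPerfect G σ := hσ
      have a2 : IsPerfect G σ' := hσ'
      simp only [dif_pos a1, dif_pos a2] at h
      funext x
      have h3 : (toSub σ a1).Adj x (σ x) := rfl
      rw [h] at h3
      exact (show σ' x = σ x from h3).symm
  calc Set.ncard {M : G.Subgraph | M.IsMatching ∧ (M.vertsᶜ).ncard = 2}
      ≤ Set.ncard {τ : V → V | ∃ u v, NP G τ u v} := h1
    _ ≤ Fintype.card V ^ (6 * k + 2) * Set.ncard {σ : V → V | IsPerfect G σ} :=
        count_maps G k hα ⟨ofSub M0, ofSub_isPerfect hM0⟩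
    _ ≤ Fintype.card V ^ (6 * k + 2) * Set.ncard {M : G.Subgraph | M.IsPerfectMatching} :=
        Nat.mul_le_mul_left _ h2

end Vale.Agent.Lib.Helper7.P308
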