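import Mathlib

/-!
Augmenting paths for near-perfect matchings given by partner maps.

A perfect matching is recorded by its partner map `σ` (`IsPerfect`), a near-perfect matching with
uncovered vertices `u`, `v` by a partner map `τ` fixing exactly `u` and `v` (`NP`).  An augmenting
path with `L` inner matching edges is given by two sequences: `x 0 = u`, the matching edges
`y i, x i` for `1 ≤ i ≤ L`, `y (L + 1) = v`, with `x i` adjacent to `y (i + 1)`.
-/

namespace Vale.Agent.Lib.Helper7.P308

open Finset

variable {V : Type*}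

/-- `σ` is the partner map of a perfect matching of `G`. -/
def IsPerfect (G : SimpleGraph V) (σ : V → V) : Prop :=
  ∀ x, G.Adj x (σ x) ∧ σ (σ x) = x

/-- `τ` is the partner map of a near-perfect matching of `G` whose uncovered vertices are `u`
and `v`. -/
def NP (G : SimpleGraph V) (τ : V → V) (u v : V) : Prop :=
  (∀ x, τ (τ x) = x) ∧ (∀ x, τ x ≠ x → G.Adj x (τ x)) ∧ u ≠ v ∧ ∀ x, τ x = x ↔ (x = u ∨ x = v)

/-- An augmenting path with `L` inner matching edges. -/
def AugPath (G : SimpleGraph V) (τ : V → V) (u v : V) (L : ℕ) (x y : ℕ → V) : Prop :=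
  x 0 = u ∧ y (L + 1) = v ∧
  (∀ i, 1 ≤ i → i ≤ L → τ (y i) = x i) ∧
  (∀ i, i ≤ L → G.Adj (x i) (y (i + 1))) ∧
  (∀ i j, 1 ≤ i → i ≤ L → 1 ≤ j → j ≤ L → x i = x j → i = j) ∧
  (∀ i j, 1 ≤ i → i ≤ L → 1 ≤ j → j ≤ L → x i ≠ y j)

/-- The first step along a path: match `u` with its neighbour `w`, uncover the partner of `w`. -/
def step [DecidableEq V] (τ : V → V) (u w : V) : V → V := fun z =>
  if z = u then w else if z = w then u else if z = τ w then τ w else τ z

theorem np_step [DecidableEq V] {G : SimpleGraph V} {τ : V → V} {u v : V} (h : NP G τ u v)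
    {w : V} (huw : G.Adj u w) (hwv : w ≠ v) : NP G (step τ u w) (τ w) v := by
  obtain ⟨hinv, hadj, huv, hfix⟩ := h
  have hτu : τ u = u := (hfix u).2 (Or.inl rfl)
  have hτv : τ v = v := (hfix v).2 (Or.inr rfl)
  have hwu : w ≠ u := (G.ne_of_adj huw).symm
  have hw : τ w ≠ w := fun e => by
    rcases (hfix w).1 e with e | e
    · exact hwu e
    · exact hwv e
  have hτinj : ∀ a b, τ a = τ b → a = b := fun a b e => by rw [← hinv a, ← hinv b, e]
  have hxu : τ w ≠ u := fun e => hwu (hτinj w u (by rw [e, hτu]))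
  have hxv : τ w ≠ v := fun e => hwv (hτinj w v (by rw [e, hτv]))
  refine ⟨?_, ?_, hxv, ?_⟩
  · intro z
    unfold step
    by_cases hzu : z = u
    · subst hzu
      simp [hwu]
    · by_cases hzw : z = w
      · subst hzw
        simp [hzu]
      · by_cases hzx : z = τ w
        · subst hzx
          simp [hzu, hzw]
        · have h1 : τ z ≠ u := fun e => hzu (hτinj z u (by rw [e, hτu]))
          have h2 : τ z ≠ w := fun e => hzx (by rw [← e, hinv z])
          have h3 : τ z ≠ τ w := fun e => hzw (hτinj z w e)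
          simp [hzu, hzw, hzx, h1, h2, h3, hinv z]
  · intro z
    unfold step
    by_cases hzu : z = u
    · subst hzu
      simp [huw]
    · by_cases hzw : z = w
      · subst hzw
        simp [hzu, huw.symm]
      · by_cases hzx : z = τ w
        · subst hzx
          simp [hzu, hzw]
        · simp only [hzu, hzw, hzx, if_false]
          exact hadj z
  · intro z
    unfold step
    by_cases hzu : z = u
    · subst hzu
      simp [hwu, hxu.symm, huv]
    · by_cases hzw : z = w
      · subst hzw
        simp [hzu, Ne.symm hzu, hw.symm, hwv]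
      · by_cases hzx : z = τ w
        · subst hzx
          simp [hzu, hzw]
        · simp only [hzu, hzw, hzx, if_false, false_or]
          rw [hfix z]
          simp [hzu]

theorem step_of_ne [DecidableEq V] (τ : V → V) (u w z : V) (h1 : z ≠ u) (h2 : z ≠ w)
    (h3 : z ≠ τ w) : step τ u w z = τ z := by
  simp [step, h1, h2, h3]

theorem NP.fix_left {G : SimpleGraph V} {τ : V → V} {u v : V} (h : NP G τ u v) : τ u = u :=
  (h.2.2.2 u).2 (Or.inl rfl)

theorem NP.fix_right {G : SimpleGraph V} {τ : V → V} {u v : V} (h : NP G τ u v) : τ v = v :=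
  (h.2.2.2 v).2 (Or.inr rfl)

theorem NP.ne_left {G : SimpleGraph V} {τ : V → V} {u v : V} (h : NP G τ u v) {z : V}
    (hz : τ z ≠ z) : z ≠ u := fun e => hz (e ▸ h.fix_left)

theorem NP.ne_right {G : SimpleGraph V} {τ : V → V} {u v : V} (h : NP G τ u v) {z : V}
    (hz : τ z ≠ z) : z ≠ v := fun e => hz (e ▸ h.fix_right)

theorem NP.inj {G : SimpleGraph V} {τ : V → V} {u v : V} (h : NP G τ u v) {a b : V}
    (e : τ a = τ b) : a = b := by
  rw [← h.1 a, ← h.1 b, e]

theorem AugPath.y_moved {G : SimpleGraph V} {τ : V → V} {u v : V} {L : ℕ} {x y : ℕ → V}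
    (hP : AugPath G τ u v L x y) {i : ℕ} (h1 : 1 ≤ i) (hL : i ≤ L) : τ (y i) ≠ y i := by
  rw [hP.2.2.1 i h1 hL]
  exact hP.2.2.2.2.2 i i h1 hL h1 hL

theorem AugPath.tau_x {G : SimpleGraph V} {τ : V → V} {u v : V} {L : ℕ} {x y : ℕ → V}
    (hNP : NP G τ u v) (hP : AugPath G τ u v L x y) {i : ℕ} (h1 : 1 ≤ i) (hL : i ≤ L) :
    τ (x i) = y i := by
  rw [← hP.2.2.1 i h1 hL, hNP.1]

theorem AugPath.x_moved {G : SimpleGraph V} {τ : V → V} {u v : V} {L : ℕ} {x y : ℕ → V}
    (hNP : NP G τ u v) (hP : AugPath G τ u v L x y) {i : ℕ} (h1 : 1 ≤ i) (hL : i ≤ L) :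
    τ (x i) ≠ x i := by
  rw [hP.tau_x hNP h1 hL]
  exact (hP.2.2.2.2.2 i i h1 hL h1 hL).symm

theorem AugPath.y_inj {G : SimpleGraph V} {τ : V → V} {u v : V} {L : ℕ} {x y : ℕ → V}
    (hP : AugPath G τ u v L x y) {i j : ℕ} (hi1 : 1 ≤ i) (hiL : i ≤ L) (hj1 : 1 ≤ j)
    (hjL : j ≤ L) (e : y i = y j) : i = j := by
  apply hP.2.2.2.2.1 i j hi1 hiL hj1 hjL
  rw [← hP.2.2.1 i hi1 hiL, ← hP.2.2.1 j hj1 hjL, e]

/-- Flipping a near-perfect matching along an augmenting path gives a perfect matching which
agrees with it off the path. -/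
theorem flip [DecidableEq V] (G : SimpleGraph V) : ∀ (L : ℕ) (τ : V → V) (u v : V)
    (x y : ℕ → V), NP G τ u v → AugPath G τ u v L x y →
    ∃ σ, IsPerfect G σ ∧
      ∀ z, z ≠ u → z ≠ v → (∀ i, 1 ≤ i → i ≤ L → z ≠ x i ∧ z ≠ y i) → σ z = τ z := by
  intro L
  induction L with
  | zero =>
    intro τ u v x y hNP hP
    obtain ⟨hx0, hy1, -, hadj, -, -⟩ := hP
    have huv_adj : G.Adj u v := by
      have := hadj 0 (le_refl 0)
      rwa [hx0, hy1] at this
    have hτu := hNP.fix_left
    have hτv := hNP.fix_right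
    obtain ⟨hinv, hadjτ, huv, hfix⟩ := hNP
    have hτinj : ∀ a b, τ a = τ b → a = b := fun a b e => by rw [← hinv a, ← hinv b, e]
    refine ⟨fun z => if z = u then v else if z = v then u else τ z, ?_,
      fun z hzu hzv _ => by simp [hzu, hzv]⟩
    intro z
    by_cases hzu : z = u
    · subst hzu
      simp [huv.symm, huv_adj]
    · by_cases hzv : z = v
      · subst hzv
        simp [hzu, huv_adj.symm]
      · have h1 : τ z ≠ z := fun e => by
          rcases (hfix z).1 e with e | e
          · exact hzu e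
          · exact hzv e
        have h2 : τ z ≠ u := fun e => hzu (hτinj z u (by rw [e, hτu]))
        have h3 : τ z ≠ v := fun e => hzv (hτinj z v (by rw [e, hτv]))
        simp [hzu, hzv, h2, h3, hadjτ z h1, hinv z]
  | succ L ih =>
    intro τ u v x y hNP hP
    have hP' := hP
    obtain ⟨hx0, hyL, hτ, hadj, hxinj, hxy⟩ := hP
    have huw : G.Adj u (y 1) := by
      have := hadj 0 (Nat.zero_le _)
      rwa [hx0] at this
    have hτy1 : τ (y 1) = x 1 := hτ 1 le_rfl (by omega)
    have hwv : y 1 ≠ v := hNP.ne_right (hP'.y_moved le_rfl (by omega))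
    have hNP1 := np_step hNP huw hwv
    have hP1 : AugPath G (step τ u (y 1)) (τ (y 1)) v L (fun i => x (i + 1))
        (fun i => y (i + 1)) := by
      refine ⟨hτy1.symm, hyL, ?_, ?_, ?_, ?_⟩
      · intro i hi1 hiL
        have e := hτ (i + 1) (by omega) (by omega)
        have n1 : y (i + 1) ≠ u := hNP.ne_left (hP'.y_moved (by omega) (by omega))
        have n2 : y (i + 1) ≠ y 1 := fun e2 => by
          have := hP'.y_inj (by omega) (by omega) le_rfl (by omega) e2
          omega
        have n3 : y (i + 1) ≠ τ (y 1) := by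
          rw [hτy1]
          exact (hxy 1 (i + 1) le_rfl (by omega) (by omega) (by omega)).symm
        show step τ u (y 1) (y (i + 1)) = x (i + 1)
        rw [step_of_ne τ u (y 1) _ n1 n2 n3]
        exact e
      · intro i hi
        exact hadj (i + 1) (by omega)
      · intro i j hi1 hiL hj1 hjL e
        have := hxinj (i + 1) (j + 1) (by omega) (by omega) (by omega) (by omega) e
        omega
      · intro i j hi1 hiL hj1 hjL
        exact hxy (i + 1) (j + 1) (by omega) (by omega) (by omega) (by omega)
    obtain ⟨σ, hσ, hagree⟩ := ih _ _ _ _ _ hNP1 hP1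
    refine ⟨σ, hσ, fun z hzu hzv hz => ?_⟩
    have hz1 := hz 1 le_rfl (by omega)
    rw [hagree z (by rw [hτy1]; exact hz1.1) hzv
      (fun i hi1 hiL => hz (i + 1) (by omega) (by omega))]
    exact step_of_ne τ u (y 1) z hzu hz1.2 (by rw [hτy1]; exact hz1.1)

/-- If a perfect matching exists, every near-perfect matching has an augmenting path. -/
theorem exists_path [Fintype V] [DecidableEq V] (G : SimpleGraph V) (σ0 : V → V)
    (h0 : IsPerfect G σ0) :
    ∀ (n : ℕ) (τ : V → V) (u v : V), NP G τ u v →
      (univ.filter (fun z => σ0 z ≠ τ z)).card ≤ n →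
      ∃ L x y, AugPath G τ u v L x y ∧
        ∀ i, 1 ≤ i → i ≤ L → σ0 (x i) ≠ τ (x i) ∧ σ0 (y i) ≠ τ (y i) := by
  intro n
  induction n with
  | zero =>
    intro τ u v hNP hcard
    exfalso
    have hu : u ∈ univ.filter (fun z => σ0 z ≠ τ z) := by
      rw [mem_filter]
      refine ⟨mem_univ _, ?_⟩
      rw [hNP.fix_left]
      exact (G.ne_of_adj (h0 u).1).symm
    have := card_pos.mpr ⟨u, hu⟩
    omega
  | succ n ih =>
    intro τ u v hNP hcard
    by_cases hv : σ0 u = v
    · refine ⟨0, fun _ => u, fun _ => v, ⟨rfl, rfl, ?_, ?_, ?_, ?_⟩, ?_⟩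
      · intro i h1 h2
        omega
      · intro i hi
        rw [← hv]
        exact (h0 u).1
      · intro i j h1 h2
        omega
      · intro i j h1 h2
        omega
      · intro i h1 h2
        omega
    · obtain ⟨w, hw⟩ : ∃ w, w = σ0 u := ⟨_, rfl⟩
      rw [← hw] at hv
      have huw : G.Adj u w := by
        rw [hw]
        exact (h0 u).1
      have hNP1 := np_step hNP huw hv
      have hwu : w ≠ u := (G.ne_of_adj huw).symm
      have hσw : σ0 w = u := by
        rw [hw]
        exact (h0 u).2
      have hτw : τ w ≠ w := fun e => by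
        rcases (hNP.2.2.2 w).1 e with e | e
        · exact hwu e
        · exact hv e
      have hτwu : τ w ≠ u := fun e => hwu (hNP.inj (by rw [e, hNP.fix_left]))
      have hdx : σ0 (τ w) ≠ τ (τ w) := by
        rw [hNP.1 w]
        intro e
        have : τ w = u := by
          calc τ w = σ0 (σ0 (τ w)) := ((h0 (τ w)).2).symm
            _ = σ0 w := by rw [e]
            _ = u := hσw
        exact hτwu this
      have key : ∀ z, σ0 z ≠ step τ u w z → z ≠ u ∧ z ≠ w ∧ σ0 z ≠ τ z := by
        intro z hz
        have hzu : z ≠ u := fun e => hz (by rw [e]; simp [step, hw])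
        have hzw : z ≠ w := fun e => hz (by rw [e]; simp [step, hwu, hσw])
        refine ⟨hzu, hzw, ?_⟩
        by_cases hzx : z = τ w
        · rw [hzx]
          exact hdx
        · rw [← step_of_ne τ u w z hzu hzw hzx]
          exact hz
      have hu : u ∈ univ.filter (fun z => σ0 z ≠ τ z) := by
        rw [mem_filter]
        refine ⟨mem_univ _, ?_⟩
        rw [hNP.fix_left]
        exact (G.ne_of_adj (h0 u).1).symm
      have hsub : univ.filter (fun z => σ0 z ≠ step τ u w z)
          ⊆ (univ.filter (fun z => σ0 z ≠ τ z)).erase u := by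
        intro z hz
        rw [mem_filter] at hz
        rw [mem_erase, mem_filter]
        obtain ⟨k1, -, k3⟩ := key z hz.2
        exact ⟨k1, mem_univ _, k3⟩
      have hcard1 : (univ.filter (fun z => σ0 z ≠ step τ u w z)).card ≤ n := by
        have := card_le_card hsub
        rw [card_erase_of_mem hu] at this
        omega
      obtain ⟨L, x', y', hP1, hdis⟩ := ih _ _ _ hNP1 hcard1
      have hP1' := hP1
      obtain ⟨hx0, hyL, hτ1, hadj1, hxinj1, hxy1⟩ := hP1
      have hfixx : step τ u w (τ w) = τ w := hNP1.fix_left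
      have hxm : ∀ i, 1 ≤ i → i ≤ L → x' i ≠ τ w := fun i h1 h2 e =>
        hP1'.x_moved hNP1 h1 h2 (by rw [e]; exact hfixx)
      have hym : ∀ i, 1 ≤ i → i ≤ L → y' i ≠ τ w := fun i h1 h2 e =>
        hP1'.y_moved h1 h2 (by rw [e]; exact hfixx)
      refine ⟨L + 1, fun i => if i = 0 then u else x' (i - 1),
        fun i => if i = 1 then w else y' (i - 1), ⟨?_, ?_, ?_, ?_, ?_, ?_⟩, ?_⟩
      · simp
      · have : L + 1 + 1 ≠ 1 := by omega
        simp only [this, if_false]
        exact hyL
      · intro i hi1 hiL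
        by_cases hi : i = 1
        · subst hi
          simp [hx0]
        · have a1 : i ≠ 0 := by omega
          simp only [hi, a1, if_false]
          have e := hτ1 (i - 1) (by omega) (by omega)
          obtain ⟨k1, k2, -⟩ := key _ (hdis (i - 1) (by omega) (by omega)).2
          rw [step_of_ne τ u w _ k1 k2 (hym (i - 1) (by omega) (by omega))] at e
          exact e
      · intro i hi
        by_cases hi0 : i = 0
        · subst hi0
          simp [huw]
        · have a1 : i + 1 ≠ 1 := by omega
          simp only [hi0, a1, if_false]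
          have := hadj1 (i - 1) (by omega)
          have e : i - 1 + 1 = i := by omega
          rw [e] at this
          have e2 : i + 1 - 1 = i := by omega
          rw [e2]
          exact this
      · intro i j hi1 hiL hj1 hjL e
        have a1 : i ≠ 0 := by omega
        have a2 : j ≠ 0 := by omega
        simp only [a1, a2, if_false] at e
        by_cases hi : i = 1
        · by_cases hj : j = 1
          · omega
          · exfalso
            subst hi
            simp only [Nat.sub_self] at e
            rw [hx0] at e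
            exact hxm (j - 1) (by omega) (by omega) e.symm
        · by_cases hj : j = 1
          · exfalso
            subst hj
            simp only [Nat.sub_self] at e
            rw [hx0] at e
            exact hxm (i - 1) (by omega) (by omega) e
          · have := hxinj1 (i - 1) (j - 1) (by omega) (by omega) (by omega) (by omega) e
            omega
      · intro i j hi1 hiL hj1 hjL
        have a1 : i ≠ 0 := by omega
        simp only [a1, if_false]
        by_cases hi : i = 1
        · subst hi
          simp only [Nat.sub_self]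
          rw [hx0]
          by_cases hj : j = 1
          · simp only [hj, if_true]
            exact hτw
          · simp only [hj, if_false]
            exact (hym (j - 1) (by omega) (by omega)).symm
        · by_cases hj : j = 1
          · simp only [hj, if_true]
            exact (key _ (hdis (i - 1) (by omega) (by omega)).1).2.1
          · simp only [hj, if_false]
            exact hxy1 (i - 1) (j - 1) (by omega) (by omega) (by omega) (by omega)
      · intro i hi1 hiL
        have a1 : i ≠ 0 := by omega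
        simp only [a1, if_false]
        by_cases hi : i = 1
        · subst hi
          simp only [Nat.sub_self, if_true]
          rw [hx0]
          refine ⟨hdx, ?_⟩
          rw [hσw]
          exact hτwu.symm
        · simp only [hi, if_false]
          exact ⟨(key _ (hdis (i - 1) (by omega) (by omega)).1).2.2,
            (key _ (hdis (i - 1) (by omega) (by omega)).2).2.2⟩

/-- Reversing one matching edge: if `x a` is adjacent to `x b` and `y b` to `y c`, where
`a < b < c` and `a + 3 ≤ c`, there is a shorter augmenting path. -/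
theorem shortcut {G : SimpleGraph V} {τ : V → V} {u v : V} (hNP : NP G τ u v) {L : ℕ}
    {x y : ℕ → V} (hP : AugPath G τ u v L x y) (a b c : ℕ) (hab : a < b) (hbc : b < c)
    (hc : c ≤ L + 1) (hac : a + 3 ≤ c) (h1 : G.Adj (x a) (x b)) (h2 : G.Adj (y b) (y c)) :
    ∃ L' x' y', L' < L ∧ AugPath G τ u v L' x' y' := by
  have hP' := hP
  obtain ⟨hx0, hyL, hτ, hadj, hxinj, hxy⟩ := hP
  obtain ⟨x', hx'⟩ : ∃ x' : ℕ → V, x' = fun i =>
      if i ≤ a then x i else if i = a + 1 then y b else x (i + (c - a - 2)) := ⟨_, rfl⟩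
  obtain ⟨y', hy'⟩ : ∃ y' : ℕ → V, y' = fun i =>
      if i ≤ a then y i else if i = a + 1 then x b else y (i + (c - a - 2)) := ⟨_, rfl⟩
  have xA : ∀ i, i ≤ a → x' i = x i := fun i hi => by rw [hx']; simp [hi]
  have xM : x' (a + 1) = y b := by rw [hx']; simp
  have xC : ∀ i, a + 2 ≤ i → x' i = x (i + (c - a - 2)) := fun i hi => by
    have n1 : ¬ i ≤ a := by omega
    have n2 : i ≠ a + 1 := by omega
    rw [hx']
    simp [n1, n2]
  have yA : ∀ i, i ≤ a → y' i = y i := fun i hi => by rw [hy']; simp [hi]
  have yM : y' (a + 1) = x b := by rw [hy']; simp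
  have yC : ∀ i, a + 2 ≤ i → y' i = y (i + (c - a - 2)) := fun i hi => by
    have n1 : ¬ i ≤ a := by omega
    have n2 : i ≠ a + 1 := by omega
    rw [hy']
    simp [n1, n2]
  have hb1 : 1 ≤ b := by omega
  have hbL : b ≤ L := by omega
  have hyinj : ∀ i j, 1 ≤ i → i ≤ L → 1 ≤ j → j ≤ L → y i = y j → i = j :=
    fun i j a1 a2 a3 a4 e => hP'.y_inj a1 a2 a3 a4 e
  refine ⟨L + a + 2 - c, x', y', by omega, ?_, ?_, ?_, ?_, ?_, ?_⟩
  · rw [xA 0 (Nat.zero_le _)]
    exact hx0
  · rw [yC _ (by omega)]
    have e : L + a + 2 - c + 1 + (c - a - 2) = L + 1 := by omega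
    rw [e]
    exact hyL
  · intro i hi1 hiL
    rcases (by omega : i ≤ a ∨ i = a + 1 ∨ a + 2 ≤ i) with hi | hi | hi
    · rw [xA i hi, yA i hi]
      exact hτ i hi1 (by omega)
    · subst hi
      rw [xM, yM]
      exact hP'.tau_x hNP hb1 hbL
    · rw [xC i hi, yC i hi]
      exact hτ _ (by omega) (by omega)
  · intro i hi
    rcases (by omega : i + 1 ≤ a ∨ i = a ∨ i = a + 1 ∨ a + 2 ≤ i) with hi' | hi' | hi' | hi'
    · rw [xA i (by omega), yA (i + 1) hi']
      exact hadj i (by omega)
    · subst hi'
      rw [xA i le_rfl, yM]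
      exact h1
    · subst hi'
      rw [xM, yC _ (by omega)]
      have e : a + 1 + 1 + (c - a - 2) = c := by omega
      rw [e]
      exact h2
    · rw [xC i hi', yC (i + 1) (by omega)]
      have e : i + 1 + (c - a - 2) = i + (c - a - 2) + 1 := by omega
      rw [e]
      exact hadj _ (by omega)
  · intro i j hi1 hiL hj1 hjL e
    rcases (by omega : i ≤ a ∨ i = a + 1 ∨ a + 2 ≤ i) with hi | hi | hi <;>
    rcases (by omega : j ≤ a ∨ j = a + 1 ∨ a + 2 ≤ j) with hj | hj | hj
    · rw [xA i hi, xA j hj] at e
      exact hxinj i j hi1 (by omega) hj1 (by omega) e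
    · exfalso
      subst hj
      rw [xA i hi, xM] at e
      exact hxy i b hi1 (by omega) hb1 hbL e
    · exfalso
      rw [xA i hi, xC j hj] at e
      have := hxinj i _ hi1 (by omega) (by omega) (by omega) e
      omega
    · exfalso
      subst hi
      rw [xM, xA j hj] at e
      exact hxy j b hj1 (by omega) hb1 hbL e.symm
    · omega
    · exfalso
      subst hi
      rw [xM, xC j hj] at e
      exact hxy _ b (by omega) (by omega) hb1 hbL e.symm
    · exfalso
      rw [xC i hi, xA j hj] at e
      have := hxinj _ j (by omega) (by omega) hj1 (by omega) e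
      omega
    · exfalso
      subst hj
      rw [xC i hi, xM] at e
      exact hxy _ b (by omega) (by omega) hb1 hbL e
    · rw [xC i hi, xC j hj] at e
      have := hxinj _ _ (by omega) (by omega) (by omega) (by omega) e
      omega
  · intro i j hi1 hiL hj1 hjL e
    rcases (by omega : i ≤ a ∨ i = a + 1 ∨ a + 2 ≤ i) with hi | hi | hi <;>
    rcases (by omega : j ≤ a ∨ j = a + 1 ∨ a + 2 ≤ j) with hj | hj | hj
    · rw [xA i hi, yA j hj] at e
      exact hxy i j hi1 (by omega) hj1 (by omega) e
    · subst hj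
      rw [xA i hi, yM] at e
      have := hxinj i b hi1 (by omega) hb1 hbL e
      omega
    · rw [xA i hi, yC j hj] at e
      exact hxy i _ hi1 (by omega) (by omega) (by omega) e
    · subst hi
      rw [xM, yA j hj] at e
      have := hyinj b j hb1 hbL hj1 (by omega) e
      omega
    · subst hi
      subst hj
      rw [xM, yM] at e
      exact hxy b b hb1 hbL hb1 hbL e.symm
    · subst hi
      rw [xM, yC j hj] at e
      have := hyinj b _ hb1 hbL (by omega) (by omega) e
      omega
    · rw [xC i hi, yA j hj] at e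
      exact hxy _ j (by omega) (by omega) hj1 (by omega) e
    · subst hj
      rw [xC i hi, yM] at e
      have := hxinj _ b (by omega) (by omega) hb1 hbL e
      omega
    · rw [xC i hi, yC j hj] at e
      exact hxy _ _ (by omega) (by omega) (by omega) (by omega) e

/-- If the graph has no independent set with more than `k` vertices, two sequences of distinct
vertices of length more than `3 k` contain the configuration used by `shortcut`. -/
theorem ramsey (G : SimpleGraph V) (k : ℕ)
    (hα : ∀ s : Finset V, (∀ p ∈ s, ∀ q ∈ s, p ≠ q → ¬ G.Adj p q) → s.card ≤ k)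
    (L : ℕ) (x y : ℕ → V)
    (hx : ∀ i j, 1 ≤ i → i ≤ L → 1 ≤ j → j ≤ L → x i = x j → i = j)
    (hy : ∀ i j, 1 ≤ i → i ≤ L → 1 ≤ j → j ≤ L → y i = y j → i = j)
    (hL : 3 * k < L) :
    ∃ a b c, a < b ∧ b < c ∧ c ≤ L + 1 ∧ a + 3 ≤ c ∧ G.Adj (x a) (x b) ∧ G.Adj (y b) (y c) := by
  classical
  by_contra hcon
  have hno : ∀ a b c, a < b → b < c → c ≤ L + 1 → a + 3 ≤ c → G.Adj (x a) (x b) →
      ¬ G.Adj (y b) (y c) := fun a b c h1 h2 h3 h4 h5 h6 => hcon ⟨a, b, c, h1, h2, h3, h4, h5, h6⟩
  obtain ⟨P, hP⟩ : ∃ P : ℕ → Prop, P = fun b => ∀ c, b < c → c ≤ L → ¬ G.Adj (y b) (y c) :=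
    ⟨_, rfl⟩
  have hcard : ((Finset.Icc 1 L).filter P).card
      + ((((Finset.Icc 1 L).filter (fun b => ¬ P b)).filter (fun b => Even b)).card
        + (((Finset.Icc 1 L).filter (fun b => ¬ P b)).filter (fun b => ¬ Even b)).card) = L := by
    rw [card_filter_add_card_filter_not, card_filter_add_card_filter_not]
    simp
  have hmemI : ∀ b, b ∈ Finset.Icc 1 L ↔ 1 ≤ b ∧ b ≤ L := fun b => Finset.mem_Icc
  -- the first class
  have hY : ((Finset.Icc 1 L).filter P).card ≤ k := by
    have hinj : Set.InjOn y (((Finset.Icc 1 L).filter P : Finset ℕ) : Set ℕ) := by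
      intro i hi j hj e
      rw [Finset.mem_coe, mem_filter, hmemI] at hi hj
      exact hy i j hi.1.1 hi.1.2 hj.1.1 hj.1.2 e
    rw [← card_image_of_injOn hinj]
    apply hα
    intro p hp q hq hpq
    rw [mem_image] at hp hq
    obtain ⟨i, hi, rfl⟩ := hp
    obtain ⟨j, hj, rfl⟩ := hq
    rw [mem_filter, hmemI] at hi hj
    have hij : i ≠ j := fun e => hpq (by rw [e])
    rcases Nat.lt_or_gt_of_ne hij with h | h
    · have := hi.2
      rw [hP] at this
      exact this j h hj.1.2
    · have := hj.2
      rw [hP] at this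
      exact fun hadj => this i h hi.1.2 hadj.symm
  -- indices outside the first class
  have hXgood : ∀ b, 1 ≤ b → b ≤ L → ¬ P b → ∀ a, a + 2 ≤ b → ¬ G.Adj (x a) (x b) := by
    intro b hb1 hbL hPb a hab hadj
    apply hPb
    rw [hP]
    intro c hbc hcL
    exact hno a b c (by omega) hbc (by omega) (by omega) hadj
  have hX : ∀ par : ℕ → Prop, (∀ i j, par i → par j → i < j → i + 2 ≤ j) →
      ∀ [DecidablePred par],
      (((Finset.Icc 1 L).filter (fun b => ¬ P b)).filter par).card ≤ k := by
    intro par hpar _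
    have hinj : Set.InjOn x
        ((((Finset.Icc 1 L).filter (fun b => ¬ P b)).filter par : Finset ℕ) : Set ℕ) := by
      intro i hi j hj e
      rw [Finset.mem_coe, mem_filter, mem_filter, hmemI] at hi hj
      exact hx i j hi.1.1.1 hi.1.1.2 hj.1.1.1 hj.1.1.2 e
    rw [← card_image_of_injOn hinj]
    apply hα
    intro p hp q hq hpq
    rw [mem_image] at hp hq
    obtain ⟨i, hi, rfl⟩ := hp
    obtain ⟨j, hj, rfl⟩ := hq
    rw [mem_filter, mem_filter, hmemI] at hi hj
    have hij : i ≠ j := fun e => hpq (by rw [e])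
    rcases Nat.lt_or_gt_of_ne hij with h | h
    · exact hXgood j hj.1.1.1 hj.1.1.2 hj.1.2 i (hpar i j hi.2 hj.2 h)
    · exact fun hadj => hXgood i hi.1.1.1 hi.1.1.2 hi.1.2 j (hpar j i hj.2 hi.2 h) hadj.symm
  have hX0 := hX (fun b => Even b) (fun i j hi hj hij => by
    obtain ⟨r, hr⟩ := hi
    obtain ⟨t, ht⟩ := hj
    omega)
  have hX1 := hX (fun b => ¬ Even b) (fun i j hi hj hij => by
    rw [Nat.not_even_iff_odd] at hi hj
    obtain ⟨r, hr⟩ := hi
    obtain ⟨t, ht⟩ := hj
    omega)
  omega

/-- With independence number at most `k`, there is an augmenting path with at most `3 k` inner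
matching edges. -/
theorem exists_short_path [Fintype V] (G : SimpleGraph V) (k : ℕ)
    (hα : ∀ s : Finset V, (∀ p ∈ s, ∀ q ∈ s, p ≠ q → ¬ G.Adj p q) → s.card ≤ k)
    (σ0 : V → V) (h0 : IsPerfect G σ0) (τ : V → V) (u v : V) (hNP : NP G τ u v) :
    ∃ L x y, L ≤ 3 * k ∧ AugPath G τ u v L x y := by
  classical
  obtain ⟨L0, x0, y0, hP0, -⟩ := exists_path G σ0 h0 _ τ u v hNP le_rfl
  have hex : ∃ L, ∃ x y, AugPath G τ u v L x y := ⟨L0, x0, y0, hP0⟩
  obtain ⟨x, y, hP⟩ := Nat.find_spec hex
  refine ⟨Nat.find hex, x, y, ?_, hP⟩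
  by_contra hlt
  push Not at hlt
  obtain ⟨a, b, c, hab, hbc, hc, hac, h1, h2⟩ := ramsey G k hα _ x y hP.2.2.2.2.1
    (fun i j a1 a2 a3 a4 e => hP.y_inj a1 a2 a3 a4 e) hlt
  obtain ⟨L', x', y', hlt', hP'⟩ := shortcut hNP hP a b c hab hbc hc hac h1 h2
  exact Nat.find_min hex hlt' ⟨x', y', hP'⟩

/-- The map which recovers a near-perfect matching from a perfect one, the two uncovered vertices
and the matching edges along an augmenting path. -/
noncomputable def dec (k : ℕ) (σ : V → V) (u v : V) (d : Fin (3 * k) → V × V) : V → V := by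
  classical
  exact fun z =>
    if z = u then u else if z = v then v
    else if h : ∃ i, (d i).1 = z then (d h.choose).2
    else if h : ∃ i, (d i).2 = z then (d h.choose).1
    else σ z

theorem exists_dec [Fintype V] (G : SimpleGraph V) (k : ℕ)
    (hα : ∀ s : Finset V, (∀ p ∈ s, ∀ q ∈ s, p ≠ q → ¬ G.Adj p q) → s.card ≤ k)
    (σ0 : V → V) (h0 : IsPerfect G σ0) (τ : V → V) (u v : V) (hNP : NP G τ u v) :
    ∃ σ, IsPerfect G σ ∧ ∃ d : Fin (3 * k) → V × V, τ = dec k σ u v d := by
  classical
  obtain ⟨L, x, y, hL, hP⟩ := exists_short_path G k hα σ0 h0 τ u v hNP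
  obtain ⟨σ, hσ, hagree⟩ := flip G L τ u v x y hNP hP
  refine ⟨σ, hσ, fun i => if i.val + 1 ≤ L then (x (i.val + 1), y (i.val + 1)) else (u, u), ?_⟩
  funext z
  unfold dec
  by_cases hzu : z = u
  · subst hzu
    simp [hNP.fix_left]
  · by_cases hzv : z = v
    · subst hzv
      simp [hzu, hNP.fix_right]
    · simp only [hzu, hzv, if_false]
      by_cases h1 : ∃ i : Fin (3 * k),
          (if i.val + 1 ≤ L then (x (i.val + 1), y (i.val + 1)) else (u, u)).1 = z
      · rw [dif_pos h1]
        have hs := h1.choose_spec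
        by_cases hi : h1.choose.val + 1 ≤ L
        · simp only [hi, if_true] at hs ⊢
          have e := hP.tau_x hNP (i := h1.choose.val + 1) (by omega) hi
          rw [hs] at e
          exact e
        · simp only [hi, if_false] at hs
          exact absurd hs.symm hzu
      · rw [dif_neg h1]
        by_cases h2 : ∃ i : Fin (3 * k),
            (if i.val + 1 ≤ L then (x (i.val + 1), y (i.val + 1)) else (u, u)).2 = z
        · rw [dif_pos h2]
          have hs := h2.choose_spec
          by_cases hi : h2.choose.val + 1 ≤ L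
          · simp only [hi, if_true] at hs ⊢
            have e := hP.2.2.1 (h2.choose.val + 1) (by omega) hi
            rw [hs] at e
            exact e
          · simp only [hi, if_false] at hs
            exact absurd hs.symm hzu
        · rw [dif_neg h2]
          symm
          apply hagree z hzu hzv
          intro i hi1 hiL
          constructor
          · intro e
            apply h1
            refine ⟨⟨i - 1, by omega⟩, ?_⟩
            have e1 : i - 1 + 1 = i := by omega
            simp only [e1, hiL, if_true]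
            exact e.symm
          · intro e
            apply h2
            refine ⟨⟨i - 1, by omega⟩, ?_⟩
            have e1 : i - 1 + 1 = i := by omega
            simp only [e1, hiL, if_true]
            exact e.symm

/-- The counting inequality for partner maps. -/
theorem count_maps [Fintype V] (G : SimpleGraph V) (k : ℕ)
    (hα : ∀ s : Finset V, (∀ p ∈ s, ∀ q ∈ s, p ≠ q → ¬ G.Adj p q) → s.card ≤ k)
    (hpm : ∃ σ : V → V, IsPerfect G σ) :
    Set.ncard {τ : V → V | ∃ u v, NP G τ u v}
      ≤ Fintype.card V ^ (6 * k + 2) * Set.ncard {σ : V → V | IsPerfect G σ} := by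
  classical
  obtain ⟨σ0, h0⟩ := hpm
  have hsub : {τ : V → V | ∃ u v, NP G τ u v} ⊆
      (fun p : (V → V) × V × V × (Fin (3 * k) → V × V) => dec k p.1 p.2.1 p.2.2.1 p.2.2.2) ''
        ({σ : V → V | IsPerfect G σ} ×ˢ
          (Set.univ : Set (V × V × (Fin (3 * k) → V × V)))) := by
    rintro τ ⟨u, v, hNP⟩
    obtain ⟨σ, hσ, d, rfl⟩ := exists_dec G k hα σ0 h0 τ u v hNP
    exact ⟨(σ, u, v, d), ⟨hσ, Set.mem_univ _⟩, rfl⟩
  calc Set.ncard {τ : V → V | ∃ u v, NP G τ u v}
      ≤ Set.ncard ((fun p : (V → V) × V × V × (Fin (3 * k) → V × V) =>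
          dec k p.1 p.2.1 p.2.2.1 p.2.2.2) ''
        ({σ : V → V | IsPerfect G σ} ×ˢ
          (Set.univ : Set (V × V × (Fin (3 * k) → V × V))))) :=
        Set.ncard_le_ncard hsub (Set.toFinite _)
    _ ≤ Set.ncard ({σ : V → V | IsPerfect G σ} ×ˢ
          (Set.univ : Set (V × V × (Fin (3 * k) → V × V)))) :=
        Set.ncard_image_le (Set.toFinite _)
    _ = Set.ncard {σ : V → V | IsPerfect G σ} *
          Set.ncard (Set.univ : Set (V × V × (Fin (3 * k) → V × V))) := Set.ncard_prod
    _ = Fintype.card V ^ (6 * k + 2) * Set.ncard {σ : V → V | IsPerfect G σ} := by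
        rw [Set.ncard_univ, Nat.card_eq_fintype_card]
        simp only [Fintype.card_prod, Fintype.card_fun, Fintype.card_fin]
        ring

end Vale.Agent.Lib.Helper7.P308
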